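import Vale.Agent.Lib.P355.Defs
import Vale.Agent.Lib.P355.Main240

open Vale.Agent.Lib.P355 in
/-- If two mutually unbiased orthonormal bases of `ℂ^6` have all their vectors of the form of a unit
complex factor times `1/√6` times a vector of `n`-th roots of unity, then no vector of this form
is unbiased to all the vectors of both bases.  So in four mutually unbiased bases consisting of
the standard basis and three bases given by complex Hadamard matrices, if two of these matrices are
Butson matrices then the third matrix has no row all of whose entries are a common phase times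
roots of unity. -/
theorem Vale.Agent.Results.P355.NoButsonVector.result (n : ℕ) (hn : 0 < n)
    (B₂ B₃ : Fin 6 → Fin 6 → ℂ) (v : Fin 6 → ℂ)
    (h₂ : IsONB B₂) (h₃ : IsONB B₃) (h₂₃ : MutuallyUnbiased B₂ B₃)
    (b₂ : IsButsonType n B₂) (b₃ : IsButsonType n B₃) (bv : IsButsonVector n v)
    (hv₂ : ∀ j, ‖∑ k, v k * star (B₂ j k)‖ ^ 2 = 1 / 6)
    (hv₃ : ∀ j, ‖∑ k, v k * star (B₃ j k)‖ ^ 2 = 1 / 6) : False :=
  no_butson_vector hn h₂ h₃ h₂₃ b₂ b₃ bv hv₂ hv₃
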