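import Vale.Agent.Lib.P355.Defs
import Vale.Agent.Lib.P355.Main240

open Vale.Agent.Lib.P355 in
/-- There are no three pairwise mutually unbiased orthonormal bases of `ℂ^6` all of whose vectors
are, up to a unit complex factor, `1/√6` times a vector of `n`-th roots of unity, for any `n > 0`.
Such bases are unbiased to the standard basis automatically, so the standard basis and three bases
given by Butson Hadamard matrices never form four mutually unbiased bases. -/
theorem Vale.Agent.Results.P355.NoThreeButson.result (n : ℕ) (hn : 0 < n)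
    (B₁ B₂ B₃ : Fin 6 → Fin 6 → ℂ)
    (h₁ : IsONB B₁) (h₂ : IsONB B₂) (h₃ : IsONB B₃)
    (h₁₂ : MutuallyUnbiased B₁ B₂) (h₁₃ : MutuallyUnbiased B₁ B₃) (h₂₃ : MutuallyUnbiased B₂ B₃)
    (b₁ : IsButsonType n B₁) (b₂ : IsButsonType n B₂) (b₃ : IsButsonType n B₃) : False :=
  no_butson_vector hn h₂ h₃ h₂₃ b₂ b₃ (b₁ 0) (h₁₂ 0) (h₁₃ 0)
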